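import Vale.Agent.P155.NT814Y.Gre
import Vale.Agent.P155.NT924.YDef

/-!
# P155, (R1d): only the component of the support counts
-/

namespace Vale.Agent.P155.NT814Y

open MeasureTheory Set TopologicalSpace

/-- the complement of a component of an open set is open -/
theorem isOpen_diff_comp {O : Set ℂ} (hO : IsOpen O) (z : ℂ) :
    IsOpen (O \ connectedComponentIn O z) := by
  rw [isOpen_iff_mem_nhds]
  rintro y ⟨hy, hyC⟩
  refine Filter.mem_of_superset (hO.connectedComponentIn.mem_nhds (mem_connectedComponentIn hy)) ?_
  intro w hw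
  refine ⟨connectedComponentIn_subset O y hw, fun hwC => hyC ?_⟩
  have h1 := connectedComponentIn_eq hw
  have h2 := connectedComponentIn_eq hwC
  rw [h2, ← h1]
  exact mem_connectedComponentIn hy

/-- the two-piece family of a clopen part `V` of `O` -/
def two (V W : Set ℂ) (b : Bool) : Set ℂ := if b then V else W

theorem two_union (V W : Set ℂ) : (⋃ b, two V W b) = V ∪ W := by
  ext z
  simp [two, mem_iUnion, Bool.exists_bool, or_comm]

theorem two_open {V W : Set ℂ} (hV : IsOpen V) (hW : IsOpen W) (b : Bool) : IsOpen (two V W b) := by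
  cases b
  · exact hW
  · exact hV

theorem two_disj {V W : Set ℂ} (h : Disjoint V W) :
    Pairwise (Function.onFun Disjoint (two V W)) := by
  intro a b hab
  cases a <;> cases b
  · exact absurd rfl hab
  · exact h.symm
  · exact h
  · exact absurd rfl hab

/-- the Green energy of a function supported in `V`, one of two disjoint open sets -/
theorem green_part {V W : Set ℂ} (hV : IsOpen V) (hW : IsOpen W) (hd : Disjoint V W)
    (hb : Bornology.IsBounded (V ∪ W)) {φ : ℂ → ℝ} (hφ : IsTest V φ) {G : Set ℂ} :
    greenEnergy ((V ∪ W) \ G) φ = greenEnergy (V \ G) φ := by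
  have h := green_one (two_open hV hW) (two_disj hd) (by rwa [two_union]) (i := true)
    (φ := φ) hφ (G := G)
  rwa [two_union] at h

/-- the Green energy of a test function on two disjoint open sets -/
theorem green_two {V W : Set ℂ} (hV : IsOpen V) (hW : IsOpen W) (hd : Disjoint V W)
    (hb : Bornology.IsBounded (V ∪ W)) {φ : ℂ → ℝ} (hφ : IsTest (V ∪ W) φ) {G : Set ℂ} :
    greenEnergy ((V ∪ W) \ G) φ = greenEnergy (V \ G) (V.indicator φ) +
      greenEnergy (W \ G) (W.indicator φ) := by
  have hφ' : IsTest (⋃ b, two V W b) φ := by rwa [two_union]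
  have h := green_add (two_open hV hW) (two_disj hd) (by rwa [two_union]) hφ'
    (I := Finset.univ) (by simpa using hφ'.2.2) (G := G)
  rw [two_union, Fintype.sum_bool] at h
  exact h

/-- restriction to one of two disjoint open sets -/
theorem isTest_two {V W : Set ℂ} (hV : IsOpen V) (hW : IsOpen W) (hd : Disjoint V W)
    {φ : ℂ → ℝ} (hφ : IsTest (V ∪ W) φ) :
    IsTest V (V.indicator φ) ∧ IsTest W (W.indicator φ) := by
  have hφ' : IsTest (⋃ b, two V W b) φ := by rwa [two_union]
  exact ⟨isTest_piece' (two_open hV hW) (two_disj hd) hφ' true,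
    isTest_piece' (two_open hV hW) (two_disj hd) hφ' false⟩

/-- **(R1d)** -/
theorem r1d : YD.R1d := by
  intro O z φ hO hb hz hφ
  have hC : IsOpen (connectedComponentIn O z) := hO.connectedComponentIn
  have hU : connectedComponentIn O z ∪ (O \ connectedComponentIn O z) = O :=
    union_sdiff_cancel (connectedComponentIn_subset O z)
  have h := green_part hC (isOpen_diff_comp hO z) disjoint_sdiff_right (by rwa [hU]) hφ
    (G := ∅)
  rwa [hU, sdiff_empty, sdiff_empty] at h

end Vale.Agent.P155.NT814Y
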