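import Vale.Agent.P155.NT814Y.R1d
import Vale.Agent.P155.NO801.YI

/-!
# P155, (I): cutting the carpets to one hole, `Canon` on one hole
-/

namespace Vale.Agent.P155.NT814Y

open MeasureTheory Set TopologicalSpace Uq

/-! ### cutting a compact set to the closure of `V` -/

open Classical in
/-- `K ∩ closure V`, junk value `{0}` if it is empty -/
noncomputable def cut (V : Set ℂ) (K : NonemptyCompacts ℂ) : NonemptyCompacts ℂ :=
  if h : ((K : Set ℂ) ∩ closure V).Nonempty then
    ⟨⟨(K : Set ℂ) ∩ closure V, K.isCompact.inter_right isClosed_closure⟩, h⟩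
  else ⟨⟨{0}, isCompact_singleton⟩, by simp⟩

theorem rst_eq (V : Set ℂ) (s : NO801.Y.SQ) :
    NO801.Y.rst V s = fun k => cut V (s (k + 1)) := rfl

theorem coe_cut {V : Set ℂ} {K : NonemptyCompacts ℂ} (h : ((K : Set ℂ) ∩ closure V).Nonempty) :
    (cut V K : Set ℂ) = (K : Set ℂ) ∩ closure V := by
  rw [cut, dif_pos h]
  rfl

theorem coe_cut_neg {V : Set ℂ} {K : NonemptyCompacts ℂ}
    (h : ¬ ((K : Set ℂ) ∩ closure V).Nonempty) : (cut V K : Set ℂ) = {0} := by
  rw [cut, dif_neg h]
  rfl

theorem isClosed_meets {C : Set ℂ} (hC : IsClosed C) :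
    IsClosed {K : NonemptyCompacts ℂ | ((K : Set ℂ) ∩ C).Nonempty} := by
  have h := (NonemptyCompacts.isOpen_subsets_of_isOpen hC.isOpen_compl).isClosed_compl
  convert h using 1
  ext K
  rw [mem_compl_iff, mem_ofPred_eq, mem_ofPred_eq, subset_compl_iff_disjoint_right,
    not_disjoint_iff_nonempty_inter]

/-- measurability of maps with values in the compact sets -/
theorem measurable_nc {X : Type*} [MeasurableSpace X] {f : X → NonemptyCompacts ℂ}
    (h : ∀ (q : ℂ) (r : ℝ), MeasurableSet {x | Metric.infDist q (f x : Set ℂ) ≤ r}) :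
    Measurable f := by
  set T : NonemptyCompacts ℂ → (ℕ → ℝ) := fun K n => Metric.infDist (denseSeq ℂ n) (K : Set ℂ)
    with hT
  have hTc : Continuous T := continuous_pi fun n => U613.continuous_infDist _
  have hTi : Function.Injective T := fun K L h => U613.ext_infDist fun n => congrFun h n
  have hemb : MeasurableEmbedding T := hTc.measurableEmbedding hTi
  refine hemb.measurable_comp_iff.1 (measurable_pi_lambda _ fun n => ?_)
  exact measurable_of_Iic fun r => h _ r

theorem measurable_cut (V : Set ℂ) : Measurable (cut V) := by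
  apply measurable_nc
  intro q r
  have e : {K : NonemptyCompacts ℂ | Metric.infDist q (cut V K : Set ℂ) ≤ r} =
      {K : NonemptyCompacts ℂ | ((K : Set ℂ) ∩ (closure V ∩ Metric.closedBall q r)).Nonempty} ∪
      ({K : NonemptyCompacts ℂ | ((K : Set ℂ) ∩ closure V).Nonempty}ᶜ ∩
        {_K : NonemptyCompacts ℂ | Metric.infDist q ({0} : Set ℂ) ≤ r}) := by
    ext K
    by_cases h : ((K : Set ℂ) ∩ closure V).Nonempty
    · simp only [mem_union, mem_ofPred_eq, mem_inter_iff, mem_compl_iff, h, not_true_eq_false,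
        false_and, or_false]
      rw [coe_cut h]
      constructor
      · intro h1
        obtain ⟨y, hy, hy2⟩ := (K.isCompact.inter_right (isClosed_closure (s := V))
          ).exists_infDist_eq_dist h q
        rw [hy2] at h1
        exact ⟨y, hy.1, hy.2, by rwa [Metric.mem_closedBall, dist_comm]⟩
      · rintro ⟨y, hy1, hy2, hy3⟩
        rw [Metric.mem_closedBall, dist_comm] at hy3
        exact (Metric.infDist_le_dist_of_mem (show y ∈ (K : Set ℂ) ∩ closure V from
          ⟨hy1, hy2⟩)).trans hy3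
    · simp only [mem_union, mem_ofPred_eq, mem_inter_iff, mem_compl_iff, h, not_false_eq_true,
        true_and]
      rw [coe_cut_neg h]
      constructor
      · exact Or.inr
      · rintro (h1 | h1)
        · obtain ⟨y, hy⟩ := h1
          exact absurd ⟨y, hy.1, hy.2.1⟩ h
        · exact h1
  rw [e]
  exact (isClosed_meets (isClosed_closure.inter Metric.isClosed_closedBall)).measurableSet.union
    ((isClosed_meets isClosed_closure).measurableSet.compl.inter (MeasurableSet.const _))

theorem measurable_rst (V : Set ℂ) : Measurable (NO801.Y.rst V) :=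
  measurable_pi_lambda _ fun k => (measurable_cut V).comp (measurable_pi_apply (k + 1))

/-- connectedness of the cut carpet -/
theorem conn_cut {V K : Set ℂ} (hV : IsOpen V) (hfr : IsConnected (frontier V))
    (hK : IsConnected K) (hKc : IsClosed K) (h : frontier V ⊆ K) : IsConnected (K ∩ closure V) := by
  have hfV : frontier V ⊆ K ∩ closure V := fun z hz => ⟨h hz, frontier_subset_closure hz⟩
  refine ⟨hfr.nonempty.mono hfV, ?_⟩
  have key : ∀ t t' : Set ℂ, IsClosed t → IsClosed t' → K ∩ closure V ⊆ t ∪ t' →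
      (K ∩ closure V ∩ t').Nonempty → ¬ (K ∩ closure V ∩ (t ∩ t')).Nonempty →
      frontier V ⊆ t → False := by
    intro t t' ht ht' hsub hne' hno hft
    have h1 := isPreconnected_closed_iff.1 hK.isPreconnected (K ∩ closure V ∩ t')
      ((K ∩ closure V ∩ t) ∪ (K ∩ Vᶜ)) ((hKc.inter isClosed_closure).inter ht')
      (((hKc.inter isClosed_closure).inter ht).union (hKc.inter hV.isClosed_compl))
      (by
        intro z hz
        by_cases hzV : z ∈ V
        · rcases hsub ⟨hz, subset_closure hzV⟩ with h2 | h2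
          · exact Or.inr (Or.inl ⟨⟨hz, subset_closure hzV⟩, h2⟩)
          · exact Or.inl ⟨⟨hz, subset_closure hzV⟩, h2⟩
        · exact Or.inr (Or.inr ⟨hz, hzV⟩))
      (hne'.mono fun z hz => ⟨hz.1.1, hz⟩)
      (hfr.nonempty.mono fun z hz => ⟨h hz, Or.inl ⟨hfV hz, hft hz⟩⟩)
    obtain ⟨z, hz, hz1, hz2⟩ := h1
    apply hno
    rcases hz2 with hz2 | hz2
    · exact ⟨z, hz1.1, hz2.2, hz1.2⟩
    · have hzf : z ∈ frontier V := by
        rw [hV.frontier_eq]
        exact ⟨hz1.1.2, hz2.2⟩
      exact ⟨z, hz1.1, hft hzf, hz1.2⟩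
  rw [isPreconnected_closed_iff]
  intro t t' ht ht' hsub hne hne'
  by_contra hno
  have h2 : frontier V ⊆ t ∨ frontier V ⊆ t' := by
    by_contra hcon
    push Not at hcon
    obtain ⟨z, hz, hzt⟩ := not_subset.1 hcon.1
    obtain ⟨w, hw, hwt⟩ := not_subset.1 hcon.2
    have hz' : z ∈ t' := (hsub (hfV hz)).resolve_left hzt
    have hw' : w ∈ t := (hsub (hfV hw)).resolve_right hwt
    obtain ⟨u, hu, hu2⟩ := isPreconnected_closed_iff.1 hfr.isPreconnected t t' ht ht'
      (hfV.trans hsub) ⟨w, hw, hw'⟩ ⟨z, hz, hz'⟩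
    exact hno ⟨u, hfV hu, hu2⟩
  rcases h2 with h2 | h2
  · exact key t t' ht ht' hsub hne' hno h2
  · refine key t' t ht' ht (by rwa [union_comm]) hne ?_ h2
    rwa [inter_comm t' t]

/-! ### one clopen part of the domain -/

/-- a connected component, or more generally a clopen part `V` of the open set `O`, with connected
boundary -/
structure Part (O V : Set ℂ) : Prop where
  hO : IsOpen O
  hb : Bornology.IsBounded O
  hV : IsOpen V
  sub : V ⊆ O
  clopen : IsOpen (O \ V)
  fr : IsConnected (frontier V)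

theorem part_of_comp {O : Set ℂ} (hO : IsOpen O) (hb : Bornology.IsBounded O) (z : ℂ)
    (hfr : IsConnected (frontier (connectedComponentIn O z))) :
    Part O (connectedComponentIn O z) :=
  ⟨hO, hb, hO.connectedComponentIn, connectedComponentIn_subset O z, isOpen_diff_comp hO z, hfr⟩

namespace Part

variable {O V : Set ℂ}

theorem union (h : Part O V) : V ∪ (O \ V) = O := union_sdiff_cancel h.sub

theorem fr_sub (h : Part O V) : frontier V ⊆ frontier O := by
  intro z hz
  rw [h.hV.frontier_eq] at hz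
  rw [h.hO.frontier_eq]
  refine ⟨closure_mono h.sub hz.1, fun hzO => ?_⟩
  obtain ⟨w, hw, hw2⟩ := mem_closure_iff.1 hz.1 _ h.clopen ⟨hzO, hz.2⟩
  exact hw.2 hw2

theorem fr_inter (h : Part O V) : frontier O ∩ closure V = frontier V := by
  apply Subset.antisymm
  · rintro z ⟨hz1, hz2⟩
    rw [h.hO.frontier_eq] at hz1
    rw [h.hV.frontier_eq]
    exact ⟨hz2, fun hzV => hz1.2 (h.sub hzV)⟩
  · exact fun z hz => ⟨h.fr_sub hz, frontier_subset_closure hz⟩

theorem bV (h : Part O V) : Bornology.IsBounded V := h.hb.subset h.sub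

theorem ne (h : Part O V) : V.Nonempty := by
  by_contra hne
  rw [not_nonempty_iff_eq_empty] at hne
  have := h.fr.nonempty
  rw [hne, frontier_empty] at this
  exact not_nonempty_empty this

theorem green (h : Part O V) {φ : ℂ → ℝ} (hφ : IsTest V φ) (K : Set ℂ) :
    greenEnergy (O \ K) φ = greenEnergy (V \ K) φ := by
  have h1 := green_part h.hV h.clopen disjoint_sdiff_right (by rw [h.union]; exact h.hb) hφ
    (G := K)
  rwa [h.union] at h1

theorem test (h : Part O V) {φ : ℂ → ℝ} (hφ : IsTest V φ) : IsTest O φ :=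
  ⟨hφ.1, hφ.2.1, hφ.2.2.trans h.sub⟩

end Part

theorem diff_cut {V : Set ℂ} {K : NonemptyCompacts ℂ} (h : ((K : Set ℂ) ∩ closure V).Nonempty) :
    V \ (cut V K : Set ℂ) = V \ (K : Set ℂ) := by
  rw [coe_cut h]
  ext z
  constructor
  · rintro ⟨h1, h2⟩
    exact ⟨h1, fun h3 => h2 ⟨h3, subset_closure h1⟩⟩
  · rintro ⟨h1, h2⟩
    exact ⟨h1, fun h3 => h2 h3.1⟩

/-- the carpets contain the boundary -/
theorem canon_fr {O : Set ℂ} {Q : Measure (Sp O)} (hQ : Canon O Q) :
    ∀ᵐ s ∂Q, ∀ k, frontier O ⊆ ((s k).1 : Set ℂ) := by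
  filter_upwards [hQ.zero, hQ.mono] with s h0 hm k
  induction k with
  | zero => exact h0.1.ge
  | succ k ih => exact ih.trans (hm k).1

/-- **(RST1)** the part of the signed carpets of `O` in one component `V` -/
theorem carp_cut {O V : Set ℂ} (h : Part O V) {Q : Measure (Sp O)} (hQ : Canon O Q) :
    IsSignedCarpets Q V (fun k t => cut V (t k).1) (fun k t φ => pr (t k).2 φ) := by
  have hprob := hQ.prob
  have hmeet : ∀ᵐ s ∂Q, ∀ k, frontier V ⊆ ((s k).1 : Set ℂ) := by
    filter_upwards [canon_fr hQ] with s hs k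
    exact h.fr_sub.trans (hs k)
  have hne : ∀ᵐ s ∂Q, ∀ k, (((s k).1 : Set ℂ) ∩ closure V).Nonempty := by
    filter_upwards [hmeet] with s hs k
    exact h.fr.nonempty.mono fun z hz => ⟨hs k hz, frontier_subset_closure hz⟩
  have hsm : ∀ k, Measurable (fun s : Sp O => (s k).1) := fun k =>
    measurable_fst.comp (measurable_pi_apply k)
  have hsm2 : ∀ k, Measurable (fun s : Sp O => (s k).2) := fun k =>
    measurable_snd.comp (measurable_pi_apply k)
  have hgm : ∀ φ, IsTest V φ → ∀ k,
      Measurable (fun s : Sp O => greenEnergy (V \ (cut V (s k).1 : Set ℂ)) φ) := fun φ hφ k =>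
    (P155.U.measurable_green h.bV hφ).comp ((measurable_cut V).comp (hsm k))
  refine ⟨?_, ?_, ?_, ?_, ?_, ?_, ?_, ?_⟩
  · -- zero
    filter_upwards [hQ.zero, hne] with s hs hs2
    refine ⟨?_, fun φ hφ => ?_⟩
    · rw [coe_cut (hs2 0), hs.1, h.fr_inter]
    · rw [hs.2]
      exact U613.pr_zero (h.test hφ)
  · -- rep
    filter_upwards [hQ.bdd] with s hs k
    set f := (s k).2 with hf
    have hfm := Lp.aestronglyMeasurable f
    set f' : ℂ → ℝ := hfm.mk f with hf'
    have hf'm : Measurable f' := hfm.stronglyMeasurable_mk.measurable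
    refine ⟨fun z => max (-(k : ℝ)) (min k (f' z)),
      measurable_const.max (measurable_const.min hf'm), fun z => ?_, fun φ hφ => ?_⟩
    · have hk : (0 : ℝ) ≤ k := Nat.cast_nonneg k
      rw [abs_le]
      exact ⟨le_max_left _ _, max_le (by linarith) (min_le_left _ _)⟩
    · rw [← U613.integral_test_eq h.hO.measurableSet h.sub hφ, pr]
      apply integral_congr_ae
      filter_upwards [hs k, hfm.ae_eq_mk] with z hz1 hz2
      have hz4 : f' z = f z := hz2.symm
      rw [hz4]
      have hz3 := abs_le.1 hz1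
      rw [min_eq_right hz3.2, max_eq_right hz3.1]
  · -- mono
    filter_upwards [hQ.mono, hne] with s hs hs2 k
    rw [coe_cut (hs2 k), coe_cut (hs2 (k + 1))]
    exact ⟨inter_subset_inter_left _ (hs k).1, inter_subset_right⟩
  · -- conn
    filter_upwards [hQ.conn, hne, hmeet] with s hs hs2 hs3 k
    rw [coe_cut (hs2 k)]
    exact conn_cut h.hV h.fr (hs k) (s k).1.isCompact.isClosed (hs3 k)
  · -- null
    filter_upwards [hQ.null, hne] with s hs hs2 k
    rw [coe_cut (hs2 k)]
    refine measure_mono_null ?_ (hs k)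
    rintro z ⟨hz1, hz2⟩
    exact ⟨hz1.1, h.sub hz2⟩
  · -- sign
    filter_upwards [hQ.sign, hne] with s hs hs2 k z r hr hzV hdis
    rw [coe_cut (hs2 (k + 1))] at hdis
    obtain ⟨t, ht, h1⟩ := hs k z r hr (hzV.trans h.sub) (Set.disjoint_left.2 fun w hw hw' =>
      Set.disjoint_left.1 hdis hw ⟨hw', subset_closure (hzV hw)⟩)
    refine ⟨t, ht, fun φ hφ => ?_⟩
    have hφV : IsTest V φ := ⟨hφ.1, hφ.2.1, hφ.2.2.trans (Metric.ball_subset_closedBall.trans hzV)⟩
    have hφO := h.test hφV
    show pr (s (k + 1)).2 φ - pr (s k).2 φ = _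
    rw [← U613.pr_sub _ _ hφO]
    have h3 : ∀ᵐ w ∂(volume.restrict O : Measure ℂ), w ∈ Metric.ball z r →
        ((s (k + 1)).2 - (s k).2 : Fld O) w = t := by
      filter_upwards [h1, Lp.coeFn_sub (s (k + 1)).2 (s k).2] with w hw hw2 hw3
      rw [hw2]
      exact hw hw3
    exact U613.pr_of_eq_const h.hO.measurableSet
      (Metric.ball_subset_closedBall.trans (hzV.trans h.sub)) h3 hφ
  · -- meas
    intro k
    refine ⟨(measurable_cut V).comp (hsm k), fun φ hφ => ⟨?_, hgm φ hφ k⟩⟩
    exact (U613.measurable_pr (h.test hφ)).comp (hsm2 k)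
  · -- gff
    intro k m χ φ hχ hφ F hF hFb
    have hΨ : BM (fun p : Past O k => F (fun j => cut V (p j).1, fun j i => pr (p j).2 (χ i))) := by
      obtain ⟨C, hC⟩ := hFb
      refine ⟨hF.measurable.comp (Measurable.prodMk ?_ ?_), C, fun s => hC _⟩
      · exact measurable_pi_lambda _ fun j => (measurable_cut V).comp
          (measurable_fst.comp (measurable_pi_apply j))
      · exact measurable_pi_lambda _ fun j => measurable_pi_lambda _ fun i =>
          (U613.measurable_pr (h.test (hχ i))).comp (measurable_snd.comp (measurable_pi_apply j))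
    have hg := hQ.gff k φ (h.test hφ) _ hΨ
    refine Eq.trans (integral_congr_ae ?_) (hg.trans (integral_congr_ae ?_))
    · filter_upwards [hne] with s hs
      show _ * Complex.exp (_ - (greenEnergy (V \ (cut V (s (k + 1)).1 : Set ℂ)) φ : ℂ) / 2) = _
      rw [diff_cut (hs (k + 1)), ← h.green hφ]
      rfl
    · filter_upwards [hne] with s hs
      show _ = _ * Complex.exp (-(greenEnergy (V \ (cut V (s k).1 : Set ℂ)) φ : ℂ) / 2)
      rw [diff_cut (hs k), ← h.green hφ]
      rfl

end Vale.Agent.P155.NT814Y
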