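import Vale.Agent.P155.U613.Canon
import Vale.Agent.P155.U.Avg

/-!
# P155, (I2b): additivity of the Green energy over disjoint open sets
-/

namespace Vale.Agent.P155.NT814Y

open MeasureTheory Set TopologicalSpace

variable {ι : Type*}

theorem fderiv_off {U : Set ℂ} {v : ℂ → ℝ} (hv : IsTest U v) {z : ℂ} (hz : z ∉ U) :
    fderiv ℝ v z = 0 := by
  by_contra hne
  exact hz (hv.2.2 (support_fderiv_subset ℝ hne))

/-- the pieces of a test function -/
theorem isTest_piece {U : ι → Set ℂ} (hU : ∀ i, IsOpen (U i))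
    (hd : Pairwise (Function.onFun Disjoint U)) {O : Set ℂ} (hO : O ⊆ ⋃ i, U i) {v : ℂ → ℝ}
    (hv : IsTest O v) (i : ι) : IsTest (U i ∩ O) ((U i).indicator v) := by
  set W : Set ℂ := ⋃ j ∈ {j | j ≠ i}, U j with hW
  have hWo : IsOpen W := isOpen_biUnion fun j _ => hU j
  set K : Set ℂ := tsupport v ∩ Wᶜ with hK
  have hKc : IsCompact K := hv.2.1.inter_right hWo.isClosed_compl
  have hKU : K ⊆ U i := by
    rintro z ⟨hz, hzW⟩
    obtain ⟨j, hj⟩ := mem_iUnion.1 (hO (hv.2.2 hz))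
    by_cases h : j = i
    · exact h ▸ hj
    · exact absurd (mem_biUnion (show j ∈ {j | j ≠ i} from h) hj) hzW
  have h0 : ∀ z, z ∉ K → (U i).indicator v z = 0 := by
    intro z hz
    by_cases hzi : z ∈ U i
    · rw [indicator_of_mem hzi]
      by_contra hne
      apply hz
      refine ⟨subset_tsupport v hne, fun hzW => ?_⟩
      obtain ⟨j, hj, hzj⟩ := mem_iUnion₂.1 hzW
      exact (Set.disjoint_left.1 (hd hj) hzj) hzi
    · exact indicator_of_notMem hzi _
  have hs : tsupport ((U i).indicator v) ⊆ K := by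
    refine closure_minimal (fun z hz => ?_) hKc.isClosed
    by_contra hzK
    exact hz (h0 z hzK)
  refine ⟨?_, hKc.of_isClosed_subset (isClosed_tsupport _) hs,
    hs.trans fun z hz => ⟨hKU hz, hv.2.2 hz.1⟩⟩
  rw [contDiff_iff_contDiffAt]
  intro z
  by_cases hz : z ∈ U i
  · refine (hv.1.contDiffAt (x := z)).congr_of_eventuallyEq ?_
    filter_upwards [(hU i).mem_nhds hz] with w hw
    exact indicator_of_mem hw _
  · have hzK : z ∉ K := fun h => hz (hKU h)
    refine (contDiffAt_const (c := (0 : ℝ))).congr_of_eventuallyEq ?_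
    filter_upwards [hKc.isClosed.isOpen_compl.mem_nhds hzK] with w hw
    exact h0 w hw

theorem isTest_piece' {U : ι → Set ℂ} (hU : ∀ i, IsOpen (U i))
    (hd : Pairwise (Function.onFun Disjoint U)) {φ : ℂ → ℝ} (hφ : IsTest (⋃ i, U i) φ) (i : ι) :
    IsTest (U i) ((U i).indicator φ) := by
  obtain ⟨h1, h2, h3⟩ := isTest_piece hU hd subset_rfl hφ i
  exact ⟨h1, h2, h3.trans inter_subset_left⟩

theorem fderiv_piece {U : Set ℂ} (hU : IsOpen U) {v : ℂ → ℝ} {z : ℂ} (hz : z ∈ U) :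
    fderiv ℝ (U.indicator v) z = fderiv ℝ v z := by
  apply Filter.EventuallyEq.fderiv_eq
  filter_upwards [hU.mem_nhds hz] with w hw
  exact indicator_of_mem hw _

/-- the pieces met by a test function -/
theorem exists_fin {U : ι → Set ℂ} (hU : ∀ i, IsOpen (U i)) {φ : ℂ → ℝ}
    (hφ : IsTest (⋃ i, U i) φ) : ∃ I : Finset ι, tsupport φ ⊆ ⋃ i ∈ I, U i :=
  hφ.2.1.elim_finite_subcover U hU hφ.2.2

theorem sum_piece {U : ι → Set ℂ} (hd : Pairwise (Function.onFun Disjoint U)) {φ : ℂ → ℝ}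
    {I : Finset ι} (hI : tsupport φ ⊆ ⋃ i ∈ I, U i) (z : ℂ) :
    ∑ i ∈ I, (U i).indicator φ z = φ z := by
  classical
  by_cases hz : z ∈ ⋃ i ∈ I, U i
  · obtain ⟨i, hi, hzi⟩ := mem_iUnion₂.1 hz
    rw [Finset.sum_eq_single_of_mem i hi, indicator_of_mem hzi]
    intro j _ hji
    exact indicator_of_notMem (fun h => Set.disjoint_left.1 (hd hji) h hzi) _
  · have h0 : φ z = 0 := by
      by_contra hne
      exact hz (hI (subset_tsupport φ hne))
    rw [h0]
    refine Finset.sum_eq_zero fun i hi => ?_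
    exact indicator_of_notMem (fun h => hz (mem_biUnion hi h)) _

/-- **Additivity of the Green energy.** -/
theorem green_add {U : ι → Set ℂ} (hU : ∀ i, IsOpen (U i))
    (hd : Pairwise (Function.onFun Disjoint U)) (hb : Bornology.IsBounded (⋃ i, U i))
    {φ : ℂ → ℝ} (hφ : IsTest (⋃ i, U i) φ) {I : Finset ι} (hI : tsupport φ ⊆ ⋃ i ∈ I, U i)
    {G : Set ℂ} :
    greenEnergy ((⋃ i, U i) \ G) φ = ∑ i ∈ I, greenEnergy (U i \ G) ((U i).indicator φ) := by
  classical
  have hpt : ∀ i, IsTest (U i) ((U i).indicator φ) := isTest_piece' hU hd hφ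
  obtain ⟨M, hM⟩ := hφ.1.continuous.bounded_above_of_compact_support hφ.2.1
  have hM' : ∀ z, |φ z| ≤ M := fun z => by
    have := hM z
    rwa [Real.norm_eq_abs] at this
  have h0 : ∀ z, z ∉ ⋃ i, U i → φ z = 0 := fun z hz => P155.U.test_zero hφ hz
  have hbd := P155.U.bdd_dval hb hM' h0 (U := (⋃ i, U i) \ G) sdiff_subset
  have hbdi : ∀ i, BddAbove {x | ∃ v, IsTest (U i \ G) v ∧
      x = 2 * (∫ z, (U i).indicator φ z * v z) - ∫ z, ‖fderiv ℝ v z‖ ^ 2} := by
    intro i
    refine P155.U.bdd_dval (hb.subset (subset_iUnion U i)) (M := M) (fun z => ?_) (fun z hz => ?_)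
      (U := U i \ G) sdiff_subset
    · by_cases hz : z ∈ U i
      · rw [indicator_of_mem hz]
        exact hM' z
      · rw [indicator_of_notMem hz, abs_zero]
        exact (abs_nonneg _).trans (hM' z)
    · exact indicator_of_notMem hz _
  have hmulint : ∀ {f g : ℂ → ℝ} {S S' : Set ℂ}, IsTest S f → IsTest S' g →
      Integrable (fun z => f z * g z) := by
    intro f g S S' hf hg
    exact (hf.1.continuous.mul hg.1.continuous).integrable_of_hasCompactSupport hg.2.1.mul_left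
  apply le_antisymm
  · apply P155.U.greenEnergy_le
    intro v hv
    have hv' : ∀ i, IsTest (U i \ G) ((U i).indicator v) := by
      intro i
      obtain ⟨h1, h2, h3⟩ := isTest_piece hU hd (sdiff_subset (s := ⋃ i, U i) (t := G)) hv i
      exact ⟨h1, h2, h3.trans fun z hz => ⟨hz.1, hz.2.2⟩⟩
    have e1 : ∫ z, φ z * v z = ∑ i ∈ I, ∫ z, (U i).indicator φ z * (U i).indicator v z := by
      rw [← integral_finsetSum]
      · congr 1
        funext z
        rw [← sum_piece hd hI z, Finset.sum_mul]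
        refine Finset.sum_congr rfl fun i _ => ?_
        by_cases hz : z ∈ U i
        · rw [indicator_of_mem hz, indicator_of_mem hz]
        · rw [indicator_of_notMem hz, zero_mul, zero_mul]
      · intro i _
        exact hmulint (hpt i) (hv' i)
    have e2 : ∑ i ∈ I, ∫ z, ‖fderiv ℝ ((U i).indicator v) z‖ ^ 2 ≤ ∫ z, ‖fderiv ℝ v z‖ ^ 2 := by
      rw [← integral_finsetSum _ fun i _ => P155.U.test_sq (hv' i)]
      refine integral_mono (integrable_finsetSum _ fun i _ => P155.U.test_sq (hv' i))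
        (P155.U.test_sq hv) fun z => ?_
      show ∑ i ∈ I, ‖fderiv ℝ ((U i).indicator v) z‖ ^ 2 ≤ ‖fderiv ℝ v z‖ ^ 2
      by_cases hz : ∃ i ∈ I, z ∈ U i
      · obtain ⟨i, hi, hzi⟩ := hz
        rw [Finset.sum_eq_single_of_mem i hi, fderiv_piece (hU i) hzi]
        intro j _ hji
        rw [fderiv_off (hv' j) fun h => Set.disjoint_left.1 (hd hji) h.1 hzi]
        simp
      · rw [Finset.sum_eq_zero]
        · positivity
        · intro i hi
          rw [fderiv_off (hv' i) fun h => hz ⟨i, hi, h.1⟩]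
          simp
    have e3 : ∀ i ∈ I, 2 * (∫ z, (U i).indicator φ z * (U i).indicator v z) -
        ∫ z, ‖fderiv ℝ ((U i).indicator v) z‖ ^ 2 ≤ greenEnergy (U i \ G) ((U i).indicator φ) :=
      fun i _ => le_csSup (hbdi i) ⟨_, hv' i, rfl⟩
    have e4 := Finset.sum_le_sum e3
    rw [Finset.sum_sub_distrib, ← Finset.mul_sum] at e4
    rw [e1]
    linarith
  · apply le_of_forall_pos_le_add
    intro ε hε
    have hε' : 0 < ε / (I.card + 1) := by positivity
    have hex : ∀ i, ∃ v, IsTest (U i \ G) v ∧ greenEnergy (U i \ G) ((U i).indicator φ) -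
        ε / (I.card + 1) < 2 * (∫ z, (U i).indicator φ z * v z) - ∫ z, ‖fderiv ℝ v z‖ ^ 2 := by
      intro i
      obtain ⟨x, ⟨v, hv, rfl⟩, hx⟩ := (lt_csSup_iff (hbdi i) ⟨_, _, P155.U.isTest_zero _, rfl⟩).1
        (sub_lt_self (greenEnergy (U i \ G) ((U i).indicator φ)) hε')
      exact ⟨v, hv, hx⟩
    choose v hv hvε using hex
    have hvO : ∀ i, IsTest ((⋃ i, U i) \ G) (v i) := fun i =>
      ⟨(hv i).1, (hv i).2.1, (hv i).2.2.trans fun z hz => ⟨mem_iUnion.2 ⟨i, hz.1⟩, hz.2⟩⟩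
    have hs : IsTest ((⋃ i, U i) \ G) (fun z => ∑ i ∈ I, 1 * v i z) :=
      P155.UK.IsTest.sum I (fun _ => 1) v fun i _ _ => hvO i
    simp only [one_mul] at hs
    have e1 : ∫ z, φ z * ∑ i ∈ I, v i z = ∑ i ∈ I, ∫ z, (U i).indicator φ z * v i z := by
      rw [← integral_finsetSum]
      · congr 1
        funext z
        rw [Finset.mul_sum]
        refine Finset.sum_congr rfl fun i _ => ?_
        by_cases hz : z ∈ U i
        · rw [indicator_of_mem hz]
        · rw [P155.U.test_zero (hv i) fun h => hz h.1, mul_zero, mul_zero]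
      · intro i _
        exact hmulint (hpt i) (hv i)
    have e2 : ∫ z, ‖fderiv ℝ (fun z => ∑ i ∈ I, v i z) z‖ ^ 2 =
        ∑ i ∈ I, ∫ z, ‖fderiv ℝ (v i) z‖ ^ 2 := by
      rw [← integral_finsetSum _ fun i _ => P155.U.test_sq (hv i)]
      congr 1
      funext z
      have hf : fderiv ℝ (fun z => ∑ i ∈ I, v i z) z = ∑ i ∈ I, fderiv ℝ (v i) z :=
        fderiv_fun_sum fun i _ => (P155.U.test_c1 (hv i)).differentiable (by norm_num) z
      rw [hf]
      by_cases hz : ∃ i ∈ I, z ∈ U i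
      · obtain ⟨i, hi, hzi⟩ := hz
        have h1 : ∀ j ∈ I, j ≠ i → fderiv ℝ (v j) z = 0 := fun j _ hji =>
          fderiv_off (hv j) fun h => Set.disjoint_left.1 (hd hji) h.1 hzi
        rw [Finset.sum_eq_single_of_mem i hi h1, Finset.sum_eq_single_of_mem i hi]
        intro j hj hji
        rw [h1 j hj hji]
        simp
      · have h1 : ∀ j ∈ I, fderiv ℝ (v j) z = 0 := fun j hj =>
          fderiv_off (hv j) fun h => hz ⟨j, hj, h.1⟩
        rw [Finset.sum_eq_zero h1, Finset.sum_eq_zero]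
        · simp
        · intro j hj
          rw [h1 j hj]
          simp
    have e3 : 2 * (∫ z, φ z * ∑ i ∈ I, v i z) - ∫ z, ‖fderiv ℝ (fun z => ∑ i ∈ I, v i z) z‖ ^ 2 ≤
        greenEnergy ((⋃ i, U i) \ G) φ := le_csSup hbd ⟨_, hs, rfl⟩
    rw [e1, e2] at e3
    have e4 : ∑ i ∈ I, (greenEnergy (U i \ G) ((U i).indicator φ) - ε / (I.card + 1)) ≤
        ∑ i ∈ I, (2 * (∫ z, (U i).indicator φ z * v i z) - ∫ z, ‖fderiv ℝ (v i) z‖ ^ 2) :=
      Finset.sum_le_sum fun i _ => (hvε i).le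
    rw [Finset.sum_sub_distrib, Finset.sum_sub_distrib, ← Finset.mul_sum, Finset.sum_const,
      nsmul_eq_mul] at e4
    have e5 : (I.card : ℝ) * (ε / (I.card + 1)) ≤ ε := by
      rw [mul_div_assoc', div_le_iff₀ (by positivity)]
      nlinarith
    linarith

/-- the Green energy of a function supported in one piece -/
theorem green_one {U : ι → Set ℂ} (hU : ∀ i, IsOpen (U i))
    (hd : Pairwise (Function.onFun Disjoint U)) (hb : Bornology.IsBounded (⋃ i, U i))
    {φ : ℂ → ℝ} {i : ι} (hφ : IsTest (U i) φ) {G : Set ℂ} :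
    greenEnergy ((⋃ i, U i) \ G) φ = greenEnergy (U i \ G) φ := by
  have h1 : IsTest (⋃ i, U i) φ := ⟨hφ.1, hφ.2.1, hφ.2.2.trans (subset_iUnion U i)⟩
  have h2 : tsupport φ ⊆ ⋃ j ∈ ({i} : Finset ι), U j := by
    simpa using hφ.2.2
  have h3 : (U i).indicator φ = φ := by
    funext z
    by_cases hz : z ∈ U i
    · exact indicator_of_mem hz _
    · rw [indicator_of_notMem hz, P155.U.test_zero hφ hz]
  rw [green_add hU hd hb h1 h2, Finset.sum_singleton, h3]

end Vale.Agent.P155.NT814Y
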