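import Vale.Agent.P155.NT814Y.Cut
import Vale.Agent.P155.U.Key2

/-!
# P155, (I): the splice of signed carpets of `O` with an independent copy in a clopen part `V`:
the Gaussian identity
-/

namespace Vale.Agent.P155.NT814Y

open MeasureTheory Set TopologicalSpace Uq

/-! ### bounded measurable functionals of the past -/

/-- the observables of the first `k + 1` levels -/
abbrev Ob (k m : ℕ) : Type := (Fin (k + 1) → NonemptyCompacts ℂ) × (Fin (k + 1) → Fin m → ℝ)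

/-- separating functions on `Ob` -/
noncomputable def obf (k m : ℕ) : (Fin (k + 1) × ℕ) ⊕ (Fin (k + 1) × Fin m) → Ob k m → ℝ
  | Sum.inl (l, n), p => Metric.infDist (denseSeq ℂ n) (p.1 l : Set ℂ)
  | Sum.inr (l, i), p => p.2 l i

theorem continuous_obf (k m : ℕ) (i : (Fin (k + 1) × ℕ) ⊕ (Fin (k + 1) × Fin m)) :
    Continuous (obf k m i) := by
  obtain (⟨l, n⟩ | ⟨l, i⟩) := i
  · exact (U613.continuous_infDist (denseSeq ℂ n)).comp ((continuous_apply l).comp continuous_fst)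
  · exact (continuous_apply i).comp ((continuous_apply l).comp continuous_snd)

theorem measurable_obf (k m : ℕ) (i : (Fin (k + 1) × ℕ) ⊕ (Fin (k + 1) × Fin m)) :
    Measurable (obf k m i) := (continuous_obf k m i).measurable

theorem sep_obf {k m : ℕ} (p q : Ob k m) (h : ∀ i, obf k m i p = obf k m i q) : p = q := by
  apply Prod.ext
  · funext l
    exact U613.ext_infDist fun n => h (Sum.inl (l, n))
  · funext l i
    exact h (Sum.inr (l, i))

section

variable {Θ : Type} {Ω : Set ℂ} {G : ℕ → Θ → NonemptyCompacts ℂ} {H : ℕ → Θ → (ℂ → ℝ) → ℝ}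

/-- the left weight of the identity -/
noncomputable def wl (Ω : Set ℂ) (G : ℕ → Θ → NonemptyCompacts ℂ) (H : ℕ → Θ → (ℂ → ℝ) → ℝ)
    (k : ℕ) (φ : ℂ → ℝ) (x : Θ) : ℂ :=
  Complex.exp (Complex.I * Real.sqrt (Real.pi / 2) * (H (k + 1) x φ - H k x φ) -
    greenEnergy (Ω \ G (k + 1) x) φ / 2)

/-- the right weight of the identity -/
noncomputable def wr (Ω : Set ℂ) (G : ℕ → Θ → NonemptyCompacts ℂ) (k : ℕ) (φ : ℂ → ℝ) (x : Θ) :
    ℂ := Complex.exp (- greenEnergy (Ω \ G k x) φ / 2)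

/-- the observables -/
def ob (G : ℕ → Θ → NonemptyCompacts ℂ) (H : ℕ → Θ → (ℂ → ℝ) → ℝ) (k : ℕ) {m : ℕ}
    (χ : Fin m → ℂ → ℝ) (x : Θ) : Ob k m := (fun j => G j x, fun j i => H j x (χ i))

theorem norm_wl (k : ℕ) (φ : ℂ → ℝ) (x : Θ) : ‖wl Ω G H k φ x‖ ≤ 1 := by
  rw [wl, Complex.norm_exp, Real.exp_le_one_iff]
  have := UK.greenEnergy_nonneg (Ω \ G (k + 1) x) φ
  simp only [Complex.sub_re, Complex.mul_re, Complex.I_re, Complex.I_im, Complex.ofReal_re,
    Complex.ofReal_im, Complex.mul_im, Complex.sub_im, Complex.div_ofNat_re]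
  linarith

theorem norm_wr (k : ℕ) (φ : ℂ → ℝ) (x : Θ) : ‖wr Ω G k φ x‖ ≤ 1 := by
  rw [wr, Complex.norm_exp, Real.exp_le_one_iff]
  have := UK.greenEnergy_nonneg (Ω \ G k x) φ
  simp only [Complex.neg_re, Complex.ofReal_re, Complex.div_ofNat_re]
  linarith

variable [MeasurableSpace Θ] {P : Measure Θ}

theorem measurable_wl (hS : IsSignedCarpets P Ω G H) (k : ℕ) {φ : ℂ → ℝ} (hφ : IsTest Ω φ) :
    Measurable (wl Ω G H k φ) := by
  apply Complex.measurable_exp.comp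
  exact (((Complex.measurable_ofReal.comp ((hS.meas (k + 1)).2 φ hφ).1).sub
    (Complex.measurable_ofReal.comp ((hS.meas k).2 φ hφ).1)).const_mul _).sub
    ((Complex.measurable_ofReal.comp ((hS.meas (k + 1)).2 φ hφ).2).div_const 2)

theorem measurable_wr (hS : IsSignedCarpets P Ω G H) (k : ℕ) {φ : ℂ → ℝ} (hφ : IsTest Ω φ) :
    Measurable (wr Ω G k φ) := by
  apply Complex.measurable_exp.comp
  exact ((Complex.measurable_ofReal.comp ((hS.meas k).2 φ hφ).2).neg).div_const 2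

theorem measurable_ob (hS : IsSignedCarpets P Ω G H) (k : ℕ) {m : ℕ} {χ : Fin m → ℂ → ℝ}
    (hχ : ∀ i, IsTest Ω (χ i)) : Measurable (ob G H k χ) := by
  refine Measurable.prodMk ?_ ?_
  · exact measurable_pi_lambda _ fun j => (hS.meas j).1
  · exact measurable_pi_lambda _ fun j => measurable_pi_lambda _ fun i =>
      ((hS.meas j).2 _ (hχ i)).1

/-- the identity for bounded measurable functionals -/
theorem gff_bm [IsProbabilityMeasure P] (hS : IsSignedCarpets P Ω G H) (k : ℕ) {m : ℕ}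
    {χ : Fin m → ℂ → ℝ} (hχ : ∀ i, IsTest Ω (χ i)) {φ : ℂ → ℝ} (hφ : IsTest Ω φ)
    {Ψ : Ob k m → ℝ} (hΨ : Measurable Ψ) (hΨb : ∃ C, ∀ y, |Ψ y| ≤ C) :
    ∫ x, (Ψ (ob G H k χ x) : ℂ) * wl Ω G H k φ x ∂P =
      ∫ x, (Ψ (ob G H k χ x) : ℂ) * wr Ω G k φ x ∂P := by
  refine U613.integral_ext_complex (measurable_obf k m) sep_obf (measurable_ob hS k hχ)
    (measurable_wl hS k hφ) (measurable_wr hS k hφ) (norm_wl k φ) (norm_wr k φ) ?_ hΨ hΨb
  intro J F hF hFb
  have hFc : Continuous (fun p : Ob k m => F (fun j : J => obf k m j p)) :=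
    hF.comp (continuous_pi fun j => continuous_obf k m j)
  have hFb' : ∃ C, ∀ p : Ob k m, |F (fun j : J => obf k m j p)| ≤ C := by
    obtain ⟨C, hC⟩ := hFb
    exact ⟨C, fun p => hC _⟩
  exact hS.gff k m χ φ hχ hφ (fun p => F (fun j : J => obf k m j p)) hFc hFb'

end

/-! ### Fubini -/

/-- two identities, one for each factor of a product space -/
theorem fub2 {Θ Θ' Y Y' : Type*} [MeasurableSpace Θ] [MeasurableSpace Θ'] [MeasurableSpace Y]
    [MeasurableSpace Y'] {P : Measure Θ} [IsProbabilityMeasure P] {P' : Measure Θ'}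
    [IsProbabilityMeasure P'] {β : Θ → Y} {β' : Θ' → Y'} (hβ : Measurable β)
    (hβ' : Measurable β') {a b : Θ → ℂ} {a' b' : Θ' → ℂ} (ha : Measurable a) (hb : Measurable b)
    (ha' : Measurable a') (hb' : Measurable b') (ha1 : ∀ x, ‖a x‖ ≤ 1) (hb1 : ∀ x, ‖b x‖ ≤ 1)
    (ha1' : ∀ x, ‖a' x‖ ≤ 1) (hb1' : ∀ x, ‖b' x‖ ≤ 1)
    (h : ∀ Ψ : Y → ℝ, Measurable Ψ → (∃ C, ∀ y, |Ψ y| ≤ C) →
      ∫ x, (Ψ (β x) : ℂ) * a x ∂P = ∫ x, (Ψ (β x) : ℂ) * b x ∂P)
    (h' : ∀ Ψ : Y' → ℝ, Measurable Ψ → (∃ C, ∀ y, |Ψ y| ≤ C) →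
      ∫ x, (Ψ (β' x) : ℂ) * a' x ∂P' = ∫ x, (Ψ (β' x) : ℂ) * b' x ∂P')
    {Φ : Y × Y' → ℝ} (hΦ : Measurable Φ) (hΦb : ∃ C, ∀ y, |Φ y| ≤ C) :
    ∫ z, (Φ (β z.1, β' z.2) : ℂ) * (a z.1 * a' z.2) ∂(P.prod P') =
      ∫ z, (Φ (β z.1, β' z.2) : ℂ) * (b z.1 * b' z.2) ∂(P.prod P') := by
  obtain ⟨C, hC⟩ := hΦb
  have hint : ∀ (u : Θ → ℂ) (u' : Θ' → ℂ), Measurable u → Measurable u' → (∀ x, ‖u x‖ ≤ 1) →
      (∀ x, ‖u' x‖ ≤ 1) →
      Integrable (fun z : Θ × Θ' => (Φ (β z.1, β' z.2) : ℂ) * (u z.1 * u' z.2)) (P.prod P') := by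
    intro u u' hu hu' hu1 hu1'
    have hm : Measurable (fun z : Θ × Θ' => (Φ (β z.1, β' z.2) : ℂ) * (u z.1 * u' z.2)) :=
      (Complex.measurable_ofReal.comp (hΦ.comp ((hβ.comp measurable_fst).prodMk
        (hβ'.comp measurable_snd)))).mul ((hu.comp measurable_fst).mul (hu'.comp measurable_snd))
    refine Integrable.of_bound hm.aestronglyMeasurable C ?_
    filter_upwards with z
    have h1 : |Φ (β z.1, β' z.2)| ≤ C := hC _
    have h2 : 0 ≤ C := (abs_nonneg _).trans h1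
    rw [norm_mul, norm_mul, Complex.norm_real, Real.norm_eq_abs]
    calc |Φ (β z.1, β' z.2)| * (‖u z.1‖ * ‖u' z.2‖) ≤ C * (1 * 1) :=
          mul_le_mul h1 (mul_le_mul (hu1 _) (hu1' _) (norm_nonneg _) zero_le_one)
            (by positivity) h2
      _ = C := by ring
  have e1 : ∫ z, (Φ (β z.1, β' z.2) : ℂ) * (a z.1 * a' z.2) ∂(P.prod P') =
      ∫ z, (Φ (β z.1, β' z.2) : ℂ) * (b z.1 * a' z.2) ∂(P.prod P') := by
    rw [integral_prod_symm _ (hint a a' ha ha' ha1 ha1'),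
      integral_prod_symm _ (hint b a' hb ha' hb1 ha1')]
    congr 1
    funext y
    have e : ∀ u : Θ → ℂ, ∫ x, (Φ (β x, β' y) : ℂ) * (u x * a' y) ∂P =
        (∫ x, (Φ (β x, β' y) : ℂ) * u x ∂P) * a' y := by
      intro u
      rw [← integral_mul_const]
      congr 1
      funext x
      ring
    show ∫ x, (Φ (β x, β' y) : ℂ) * (a x * a' y) ∂P = ∫ x, (Φ (β x, β' y) : ℂ) * (b x * a' y) ∂P
    rw [e a, e b, h (fun t => Φ (t, β' y)) (hΦ.comp (measurable_id.prodMk measurable_const))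
      ⟨C, fun t => hC _⟩]
  have e2 : ∫ z, (Φ (β z.1, β' z.2) : ℂ) * (b z.1 * a' z.2) ∂(P.prod P') =
      ∫ z, (Φ (β z.1, β' z.2) : ℂ) * (b z.1 * b' z.2) ∂(P.prod P') := by
    rw [integral_prod _ (hint b a' hb ha' hb1 ha1'),
      integral_prod _ (hint b b' hb hb' hb1 hb1')]
    congr 1
    funext x
    have e : ∀ u : Θ' → ℂ, ∫ y, (Φ (β x, β' y) : ℂ) * (b x * u y) ∂P' =
        b x * ∫ y, (Φ (β x, β' y) : ℂ) * u y ∂P' := by
      intro u
      rw [← integral_const_mul]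
      congr 1
      funext y
      ring
    show ∫ y, (Φ (β x, β' y) : ℂ) * (b x * a' y) ∂P' =
      ∫ y, (Φ (β x, β' y) : ℂ) * (b x * b' y) ∂P'
    rw [e a', e b', h' (fun t => Φ (β x, t)) (hΦ.comp (measurable_const.prodMk measurable_id))
      ⟨C, fun t => hC _⟩]
  rw [e1, e2]

/-! ### the splice -/

/-- the splice of two compact sets -/
noncomputable def spl (V : Set ℂ) (K K' : NonemptyCompacts ℂ) : NonemptyCompacts ℂ :=
  toNC (((K : Set ℂ) \ V) ∪ K')

theorem coe_spl {V : Set ℂ} (hV : IsOpen V) (K K' : NonemptyCompacts ℂ) :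
    (spl V K K' : Set ℂ) = ((K : Set ℂ) \ V) ∪ K' := by
  have h : IsCompact (((K : Set ℂ) \ V) ∪ (K' : Set ℂ)) ∧
      (((K : Set ℂ) \ V) ∪ (K' : Set ℂ)).Nonempty :=
    ⟨(K.isCompact.diff hV).union K'.isCompact, K'.nonempty.mono subset_union_right⟩
  rw [spl, toNC, dif_pos h]
  rfl

theorem measurable_spl {V : Set ℂ} (hV : IsOpen V) :
    Measurable (fun p : NonemptyCompacts ℂ × NonemptyCompacts ℂ => spl V p.1 p.2) := by
  apply measurable_nc
  intro q r
  have e : {p : NonemptyCompacts ℂ × NonemptyCompacts ℂ |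
      Metric.infDist q (spl V p.1 p.2 : Set ℂ) ≤ r} =
      {p | ((p.1 : Set ℂ) ∩ (Vᶜ ∩ Metric.closedBall q r)).Nonempty} ∪
      {p | ((p.2 : Set ℂ) ∩ Metric.closedBall q r).Nonempty} := by
    ext p
    rw [mem_union, mem_ofPred_eq, mem_ofPred_eq, mem_ofPred_eq]
    constructor
    · intro h1
      obtain ⟨y, hy, hy2⟩ := (spl V p.1 p.2).isCompact.exists_infDist_eq_dist
        (spl V p.1 p.2).nonempty q
      rw [hy2, dist_comm] at h1
      rw [coe_spl hV] at hy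
      rcases hy with hy | hy
      · exact Or.inl ⟨y, hy.1, hy.2, h1⟩
      · exact Or.inr ⟨y, hy, h1⟩
    · rintro (⟨y, hy1, hy2, hy3⟩ | ⟨y, hy1, hy3⟩)
      · rw [Metric.mem_closedBall, dist_comm] at hy3
        refine (Metric.infDist_le_dist_of_mem ?_).trans hy3
        rw [coe_spl hV]
        exact Or.inl ⟨hy1, hy2⟩
      · rw [Metric.mem_closedBall, dist_comm] at hy3
        refine (Metric.infDist_le_dist_of_mem ?_).trans hy3
        rw [coe_spl hV]
        exact Or.inr hy1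
  rw [e]
  exact (measurable_fst (isClosed_meets (hV.isClosed_compl.inter
    Metric.isClosed_closedBall)).measurableSet).union
    (measurable_snd (isClosed_meets Metric.isClosed_closedBall).measurableSet)

/-- the splice of the observables -/
noncomputable def splOb (V : Set ℂ) {k m : ℕ} (p : Ob k m × Ob k m) : Ob k m :=
  (fun j => spl V (p.1.1 j) (p.2.1 j), fun j i => p.1.2 j i + p.2.2 j i)

theorem measurable_splOb {V : Set ℂ} (hV : IsOpen V) (k m : ℕ) :
    Measurable (splOb V : Ob k m × Ob k m → Ob k m) := by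
  have a1 : ∀ j, Measurable (fun p : Ob k m × Ob k m => (p.1.1 j, p.2.1 j)) := by
    intro j
    fun_prop
  have a2 : ∀ j i, Measurable (fun p : Ob k m × Ob k m => p.1.2 j i + p.2.2 j i) := by
    intro j i
    fun_prop
  have b1 : Measurable (fun (p : Ob k m × Ob k m) (j : Fin (k + 1)) =>
      spl V (p.1.1 j) (p.2.1 j)) := by
    refine measurable_pi_lambda _ fun j => ?_
    have h := (measurable_spl hV).comp (a1 j)
    exact h
  have b2 : Measurable (fun (p : Ob k m × Ob k m) (j : Fin (k + 1)) (i : Fin m) =>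
      p.1.2 j i + p.2.2 j i) :=
    measurable_pi_lambda _ fun j => measurable_pi_lambda _ fun i => a2 j i
  exact b1.prodMk b2

section

variable {O V : Set ℂ} {Θ Θ' : Type} [MeasurableSpace Θ] [MeasurableSpace Θ'] {P : Measure Θ}
  {P' : Measure Θ'} {G : ℕ → Θ → NonemptyCompacts ℂ} {H : ℕ → Θ → (ℂ → ℝ) → ℝ}
  {G' : ℕ → Θ' → NonemptyCompacts ℂ} {H' : ℕ → Θ' → (ℂ → ℝ) → ℝ}

/-- the carpets of the splice -/
noncomputable def splG (V : Set ℂ) (G : ℕ → Θ → NonemptyCompacts ℂ)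
    (G' : ℕ → Θ' → NonemptyCompacts ℂ) (k : ℕ) (x : Θ × Θ') : NonemptyCompacts ℂ :=
  toNC (((G k x.1 : Set ℂ) \ V) ∪ G' k x.2)

/-- the heights of the splice -/
noncomputable def splH (V : Set ℂ) (H : ℕ → Θ → (ℂ → ℝ) → ℝ) (H' : ℕ → Θ' → (ℂ → ℝ) → ℝ)
    (k : ℕ) (x : Θ × Θ') (φ : ℂ → ℝ) : ℝ :=
  H k x.1 (Vᶜ.indicator φ) + H' k x.2 (V.indicator φ)

omit [MeasurableSpace Θ] [MeasurableSpace Θ'] in
theorem coe_splG (hV : IsOpen V) (k : ℕ) (x : Θ × Θ') :
    (splG V G G' k x : Set ℂ) = ((G k x.1 : Set ℂ) \ V) ∪ G' k x.2 := coe_spl hV _ _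

/-- restriction of test functions to the two parts -/
theorem test_parts (hO : IsOpen O) (hV : IsOpen V) (hVO : V ⊆ O) (hOV : IsOpen (O \ V))
    {φ : ℂ → ℝ} (hφ : IsTest O φ) : IsTest V (V.indicator φ) ∧ IsTest (O \ V) (Vᶜ.indicator φ) ∧
      (O \ V).indicator φ = Vᶜ.indicator φ := by
  have hU : V ∪ (O \ V) = O := union_sdiff_cancel hVO
  have h1 := isTest_two hV hOV disjoint_sdiff_right (by rwa [hU])
  have h2 : (O \ V).indicator φ = Vᶜ.indicator φ := by
    funext z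
    by_cases hz : z ∈ V
    · rw [indicator_of_notMem (fun h => h.2 hz),
        indicator_of_notMem (show z ∉ Vᶜ from fun h => h hz)]
    · by_cases hzO : z ∈ O
      · rw [indicator_of_mem (show z ∈ O \ V from ⟨hzO, hz⟩), indicator_of_mem (show z ∈ Vᶜ from hz)]
      · rw [indicator_of_notMem (fun h => hzO h.1), indicator_of_mem (show z ∈ Vᶜ from hz),
          P155.U.test_zero hφ hzO]
  rw [← h2]
  exact ⟨h1.1, h1.2, rfl⟩

/-- the Green energy off the splice -/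
theorem green_spl (hO : IsOpen O) (hb : Bornology.IsBounded O) (hV : IsOpen V) (hVO : V ⊆ O)
    (hOV : IsOpen (O \ V)) {φ : ℂ → ℝ} (hφ : IsTest O φ) {K K' : NonemptyCompacts ℂ}
    (hK' : (K' : Set ℂ) ⊆ closure V) :
    greenEnergy (O \ (((K : Set ℂ) \ V) ∪ K')) φ =
      greenEnergy (O \ K) (Vᶜ.indicator φ) + greenEnergy (V \ K') (V.indicator φ) := by
  have hU : V ∪ (O \ V) = O := union_sdiff_cancel hVO
  obtain ⟨h1, h2, h3⟩ := test_parts hO hV hVO hOV hφ
  have hb' : Bornology.IsBounded (V ∪ (O \ V)) := by rwa [hU]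
  have hdis : Disjoint (O \ V) (closure V) :=
    (disjoint_sdiff_left : Disjoint (O \ V) V).closure_right hOV
  have e1 := green_two (G := ((K : Set ℂ) \ V) ∪ K') hV hOV disjoint_sdiff_right hb'
    (φ := φ) (by rwa [hU])
  rw [hU, h3] at e1
  have e2 := green_part (G := (K : Set ℂ)) hOV hV disjoint_sdiff_left
    (by rwa [union_comm]) h2
  rw [union_comm, hU] at e2
  rw [e1, e2, add_comm]
  congr 1
  · congr 1
    ext z
    constructor
    · rintro ⟨hz, hz2⟩
      exact ⟨hz, fun h => hz2 (Or.inl ⟨h, hz.2⟩)⟩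
    · rintro ⟨hz, hz2⟩
      refine ⟨hz, ?_⟩
      rintro (h | h)
      · exact hz2 h.1
      · exact Set.disjoint_left.1 hdis hz (hK' h)
  · congr 1
    ext z
    constructor
    · rintro ⟨hz, hz2⟩
      exact ⟨hz, fun h => hz2 (Or.inr h)⟩
    · rintro ⟨hz, hz2⟩
      refine ⟨hz, ?_⟩
      rintro (h | h)
      · exact h.2 hz
      · exact hz2 h

/-- **the measurability of the splice** -/
theorem meas_spl (hO : IsOpen O) (hb : Bornology.IsBounded O) (hV : IsOpen V) (hVO : V ⊆ O)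
    (hOV : IsOpen (O \ V)) (hS : IsSignedCarpets P O G H) (hS' : IsSignedCarpets P' V G' H') :
    ∀ k, @Measurable _ _ _ (borel (NonemptyCompacts ℂ)) (splG V G G' k) ∧
    ∀ φ, IsTest O φ → Measurable (fun x => splH V H H' k x φ) ∧
      Measurable (fun x => greenEnergy (O \ (splG V G G' k x : Set ℂ)) φ) := by
  intro k
  have hG : Measurable (G k) := (hS.meas k).1
  have hG' : Measurable (G' k) := (hS'.meas k).1
  have h0 : Measurable (fun x : Θ × Θ' => (G k x.1, G' k x.2)) :=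
    (hG.comp measurable_fst).prodMk (hG'.comp measurable_snd)
  have h1 : Measurable (splG V G G' k) := by
    have h := (measurable_spl hV).comp h0
    exact h
  refine ⟨h1, fun φ hφ => ⟨?_, ?_⟩⟩
  · obtain ⟨h2, h3, -⟩ := test_parts hO hV hVO hOV hφ
    have h3' : IsTest O (Vᶜ.indicator φ) := ⟨h3.1, h3.2.1, h3.2.2.trans sdiff_subset⟩
    have h4 : Measurable (fun x => H k x (Vᶜ.indicator φ)) := ((hS.meas k).2 _ h3').1
    have h5 : Measurable (fun x => H' k x (V.indicator φ)) := ((hS'.meas k).2 _ h2).1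
    exact (h4.comp measurable_fst).add (h5.comp measurable_snd)
  · have h := (P155.U.measurable_green hb hφ).comp h1
    exact h

/-- **the Gaussian identity of the splice** -/
theorem gff_spl [IsProbabilityMeasure P] [IsProbabilityMeasure P'] (hO : IsOpen O)
    (hb : Bornology.IsBounded O) (hV : IsOpen V) (hVO : V ⊆ O)
    (hOV : IsOpen (O \ V)) (hS : IsSignedCarpets P O G H) (hS' : IsSignedCarpets P' V G' H') :
    ∀ (k m : ℕ) (χ : Fin m → ℂ → ℝ) (φ : ℂ → ℝ), (∀ i, IsTest O (χ i)) → IsTest O φ →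
    ∀ F : (Fin (k + 1) → NonemptyCompacts ℂ) × (Fin (k + 1) → Fin m → ℝ) → ℝ,
    Continuous F → (∃ C, ∀ y, |F y| ≤ C) →
    ∫ x, (F (fun j => splG V G G' j x, fun j i => splH V H H' j x (χ i)) : ℂ) *
        Complex.exp (Complex.I * Real.sqrt (Real.pi / 2) *
          (splH V H H' (k + 1) x φ - splH V H H' k x φ) -
          greenEnergy (O \ splG V G G' (k + 1) x) φ / 2) ∂(P.prod P') =
      ∫ x, (F (fun j => splG V G G' j x, fun j i => splH V H H' j x (χ i)) : ℂ) *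
        Complex.exp (- greenEnergy (O \ splG V G G' k x) φ / 2) ∂(P.prod P') := by
  intro k m χ φ hχ hφ F hF hFb
  obtain ⟨hφV, hφW, -⟩ := test_parts hO hV hVO hOV hφ
  have hφO : IsTest O (Vᶜ.indicator φ) := ⟨hφW.1, hφW.2.1, hφW.2.2.trans sdiff_subset⟩
  have hχV : ∀ i, IsTest V (V.indicator (χ i)) := fun i => (test_parts hO hV hVO hOV (hχ i)).1
  have hχO : ∀ i, IsTest O (Vᶜ.indicator (χ i)) := fun i => by
    obtain ⟨-, h, -⟩ := test_parts hO hV hVO hOV (hχ i)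
    exact ⟨h.1, h.2.1, h.2.2.trans sdiff_subset⟩
  -- the functional
  set Φ : Ob k m × Ob k m → ℝ := fun p => F (splOb V p) with hΦ
  have hΦm : Measurable Φ := hF.measurable.comp (measurable_splOb hV k m)
  have hΦb : ∃ C, ∀ y, |Φ y| ≤ C := by
    obtain ⟨C, hC⟩ := hFb
    exact ⟨C, fun y => hC _⟩
  have key := fub2 (P := P) (P' := P') (measurable_ob hS k hχO) (measurable_ob hS' k hχV)
    (measurable_wl hS k hφO) (measurable_wr hS k hφO) (measurable_wl hS' k hφV)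
    (measurable_wr hS' k hφV) (norm_wl k _) (norm_wr k _) (norm_wl k _) (norm_wr k _)
    (fun Ψ hΨ hΨb => gff_bm hS k hχO hφO hΨ hΨb)
    (fun Ψ hΨ hΨb => gff_bm hS' k hχV hφV hΨ hΨb) hΦm hΦb
  have hsub : ∀ᵐ x ∂(P.prod P'), ∀ k, (G' k x.2 : Set ℂ) ⊆ closure V := by
    have h1 : ∀ᵐ y ∂P', ∀ k, (G' k y : Set ℂ) ⊆ closure V := by
      filter_upwards [hS'.mono] with y hy k
      exact (hy k).2
    exact Measure.quasiMeasurePreserving_snd.ae h1
  refine Eq.trans (integral_congr_ae ?_) (key.trans (integral_congr_ae ?_))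
  · filter_upwards [hsub] with x hx
    have e1 : (greenEnergy (O \ (splG V G G' (k + 1) x : Set ℂ)) φ : ℂ) =
        (greenEnergy (O \ (G (k + 1) x.1 : Set ℂ)) (Vᶜ.indicator φ) : ℂ) +
          (greenEnergy (V \ (G' (k + 1) x.2 : Set ℂ)) (V.indicator φ) : ℂ) := by
      rw [coe_splG hV, green_spl hO hb hV hVO hOV hφ (hx (k + 1))]
      push_cast
      rfl
    show (F _ : ℂ) * Complex.exp _ = (F _ : ℂ) * (wl O G H k (Vᶜ.indicator φ) x.1 *
      wl V G' H' k (V.indicator φ) x.2)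
    rw [wl, wl, ← Complex.exp_add, e1]
    congr 2
    simp only [splH]
    push_cast
    ring
  · filter_upwards [hsub] with x hx
    have e1 : (greenEnergy (O \ (splG V G G' k x : Set ℂ)) φ : ℂ) =
        (greenEnergy (O \ (G k x.1 : Set ℂ)) (Vᶜ.indicator φ) : ℂ) +
          (greenEnergy (V \ (G' k x.2 : Set ℂ)) (V.indicator φ) : ℂ) := by
      rw [coe_splG hV, green_spl hO hb hV hVO hOV hφ (hx k)]
      push_cast
      rfl
    show (F _ : ℂ) * (wr O G k (Vᶜ.indicator φ) x.1 * wr V G' k (V.indicator φ) x.2) =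
      (F _ : ℂ) * Complex.exp _
    rw [wr, wr, ← Complex.exp_add, e1]
    congr 2
    ring

end

end Vale.Agent.P155.NT814Y
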