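import Vale.Agent.P155.NT814Y.Spl
import Vale.Agent.P155.NT733.YC

/-!
# P155, (I): the splice of signed carpets is a family of signed carpets
-/

namespace Vale.Agent.P155.NT814Y

open MeasureTheory Set TopologicalSpace

/-- **SPL**: resampling the carpets in one hole. -/
def SPL : Prop :=
  ∀ O V : Set ℂ, IsOpen O → Bornology.IsBounded O → O.Nonempty → IsConnected (frontier O) →
  (∃ z ∈ O, V = connectedComponentIn O z) →
  ∀ (Θ : Type) (_ : MeasurableSpace Θ) (P : Measure Θ) (G : ℕ → Θ → NonemptyCompacts ℂ)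
    (H : ℕ → Θ → (ℂ → ℝ) → ℝ), IsProbabilityMeasure P → IsSignedCarpets P O G H →
  ∀ (Θ' : Type) (_ : MeasurableSpace Θ') (P' : Measure Θ') (G' : ℕ → Θ' → NonemptyCompacts ℂ)
    (H' : ℕ → Θ' → (ℂ → ℝ) → ℝ), IsProbabilityMeasure P' → IsSignedCarpets P' V G' H' →
  IsSignedCarpets (P.prod P') O (fun k x => toNC (((G k x.1 : Set ℂ) \ V) ∪ G' k x.2))
    (fun k x φ => H k x.1 (Vᶜ.indicator φ) + H' k x.2 (V.indicator φ))

section

variable {O V : Set ℂ} {Θ Θ' : Type} [MeasurableSpace Θ] [MeasurableSpace Θ'] {P : Measure Θ}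
  {P' : Measure Θ'} {G : ℕ → Θ → NonemptyCompacts ℂ} {H : ℕ → Θ → (ℂ → ℝ) → ℝ}
  {G' : ℕ → Θ' → NonemptyCompacts ℂ} {H' : ℕ → Θ' → (ℂ → ℝ) → ℝ}

theorem closure_inter (hOV : IsOpen (O \ V)) {z : ℂ} (hz : z ∈ closure V) (hzO : z ∈ O) :
    z ∈ V := by
  by_contra h
  exact Set.disjoint_left.1 ((disjoint_sdiff_left : Disjoint (O \ V) V).closure_right hOV)
    ⟨hzO, h⟩ hz

theorem frontier_sub (hO : IsOpen O) (hV : IsOpen V) (hVO : V ⊆ O) (hOV : IsOpen (O \ V)) :
    frontier V ⊆ frontier O := by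
  intro z hz
  rw [hV.frontier_eq] at hz
  rw [hO.frontier_eq]
  exact ⟨closure_mono hVO hz.1, fun hzO => hz.2 (closure_inter hOV hz.1 hzO)⟩

/-- pairing with a bounded measurable function is integrable -/
theorem int_mul {g φ : ℂ → ℝ} (hg : Measurable g) {C : ℝ} (hC : ∀ z, |g z| ≤ C) {U : Set ℂ}
    (hφ : IsTest U φ) : Integrable (fun z => g z * φ z) :=
  (P155.U.test_int hφ).bdd_mul hg.aestronglyMeasurable (c := C)
    (Filter.Eventually.of_forall fun z => by rw [Real.norm_eq_abs]; exact hC z)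

/-- the splice is a family of signed carpets -/
theorem spl_carpets [IsProbabilityMeasure P] [IsProbabilityMeasure P'] (hO : IsOpen O)
    (hb : Bornology.IsBounded O) (hV : IsOpen V) (hVO : V ⊆ O) (hOV : IsOpen (O \ V))
    (hS : IsSignedCarpets P O G H) (hS' : IsSignedCarpets P' V G' H')
    (hconn : ∀ᵐ x ∂(P.prod P'), ∀ k, IsConnected (splG V G G' k x : Set ℂ)) :
    IsSignedCarpets (P.prod P') O (splG V G G') (splH V H H') := by
  have hfst : ∀ {p : Θ → Prop}, (∀ᵐ x ∂P, p x) → ∀ᵐ x ∂(P.prod P'), p x.1 := fun h =>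
    Measure.quasiMeasurePreserving_fst.ae h
  have hsnd : ∀ {p : Θ' → Prop}, (∀ᵐ x ∂P', p x) → ∀ᵐ x ∂(P.prod P'), p x.2 := fun h =>
    Measure.quasiMeasurePreserving_snd.ae h
  have hparts : ∀ {φ : ℂ → ℝ}, IsTest O φ → IsTest V (V.indicator φ) ∧
      IsTest O (Vᶜ.indicator φ) := by
    intro φ hφ
    obtain ⟨h1, h2, -⟩ := test_parts hO hV hVO hOV hφ
    exact ⟨h1, h2.1, h2.2.1, h2.2.2.trans sdiff_subset⟩
  refine ⟨?_, ?_, ?_, hconn, ?_, ?_, meas_spl hO hb hV hVO hOV hS hS',
    gff_spl hO hb hV hVO hOV hS hS'⟩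
  · -- zero
    filter_upwards [hfst hS.zero, hsnd hS'.zero] with x h1 h2
    constructor
    · rw [coe_splG hV, h1.1, h2.1]
      apply Subset.antisymm
      · exact union_subset sdiff_subset (frontier_sub hO hV hVO hOV)
      · intro z hz
        refine Or.inl ⟨hz, fun hzV => ?_⟩
        rw [hO.frontier_eq] at hz
        exact hz.2 (hVO hzV)
    · intro φ hφ
      show H 0 x.1 (Vᶜ.indicator φ) + H' 0 x.2 (V.indicator φ) = 0
      rw [h1.2 _ (hparts hφ).2, h2.2 _ (hparts hφ).1, add_zero]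
  · -- rep
    filter_upwards [hfst hS.rep, hsnd hS'.rep] with x h1 h2 k
    obtain ⟨g, hg, hgk, hgH⟩ := h1 k
    obtain ⟨g', hg', hgk', hgH'⟩ := h2 k
    classical
    refine ⟨V.piecewise g' g, hg'.piecewise hV.measurableSet hg, fun z => ?_, fun φ hφ => ?_⟩
    · by_cases hz : z ∈ V
      · rw [piecewise_eq_of_mem _ _ _ hz]
        exact hgk' z
      · rw [piecewise_eq_of_notMem _ _ _ hz]
        exact hgk z
    · show H k x.1 (Vᶜ.indicator φ) + H' k x.2 (V.indicator φ) = _
      rw [hgH _ (hparts hφ).2, hgH' _ (hparts hφ).1, ← integral_add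
        (int_mul hg hgk (hparts hφ).2) (int_mul hg' hgk' (hparts hφ).1)]
      congr 1
      funext z
      by_cases hz : z ∈ V
      · rw [piecewise_eq_of_mem _ _ _ hz, indicator_of_mem hz,
          indicator_of_notMem (show z ∉ Vᶜ from fun h => h hz)]
        ring
      · rw [piecewise_eq_of_notMem _ _ _ hz, indicator_of_notMem hz,
          indicator_of_mem (show z ∈ Vᶜ from hz)]
        ring
  · -- mono
    filter_upwards [hfst hS.mono, hsnd hS'.mono] with x h1 h2 k
    rw [coe_splG hV, coe_splG hV]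
    refine ⟨union_subset_union (sdiff_subset_sdiff_left (h1 k).1) (h2 k).1, union_subset ?_ ?_⟩
    · exact sdiff_subset.trans (h1 k).2
    · exact (h2 k).2.trans (closure_mono hVO)
  · -- null
    filter_upwards [hfst hS.null, hsnd hS'.null, hsnd hS'.mono] with x h1 h2 h3 k
    rw [coe_splG hV]
    refine measure_mono_null (t := ((G k x.1 : Set ℂ) ∩ O) ∪ ((G' k x.2 : Set ℂ) ∩ V)) ?_
      (measure_union_null (h1 k) (h2 k))
    rintro z ⟨hz | hz, hzO⟩
    · exact Or.inl ⟨hz.1, hzO⟩
    · exact Or.inr ⟨hz, closure_inter hOV ((h3 k).2 hz) hzO⟩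
  · -- sign
    filter_upwards [hfst hS.sign, hsnd hS'.sign, hfst hS.rep, hsnd hS'.rep] with x h1 h2 h3 h4
      k z r hr hzO hdis
    rw [coe_splG hV] at hdis
    have hz0 : ∀ k, H k x.1 (fun _ => 0) = 0 := by
      intro k
      obtain ⟨g, -, -, hg⟩ := h3 k
      rw [hg _ (P155.U.isTest_zero O)]
      simp
    have hz0' : ∀ k, H' k x.2 (fun _ => 0) = 0 := by
      intro k
      obtain ⟨g, -, -, hg⟩ := h4 k
      rw [hg _ (P155.U.isTest_zero V)]
      simp
    have hpre : IsPreconnected (Metric.closedBall z r) :=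
      (convex_closedBall z r).isPreconnected
    have hcase : Metric.closedBall z r ⊆ V ∨ Metric.closedBall z r ⊆ O \ V := by
      apply hpre.subset_or_subset hV hOV disjoint_sdiff_right
      rw [union_sdiff_cancel hVO]
      exact hzO
    rcases hcase with hc | hc
    · obtain ⟨s, hs, h5⟩ := h2 k z r hr hc (hdis.mono_right subset_union_right)
      refine ⟨s, hs, fun φ hφ => ?_⟩
      have e1 : V.indicator φ = φ := by
        funext w
        by_cases hw : w ∈ V
        · exact indicator_of_mem hw _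
        · rw [indicator_of_notMem hw]
          exact (P155.U.test_zero hφ fun h => hw (hc (Metric.ball_subset_closedBall h))).symm
      have e2 : Vᶜ.indicator φ = fun _ => 0 := by
        funext w
        by_cases hw : w ∈ V
        · exact indicator_of_notMem (show w ∉ Vᶜ from fun h => h hw) _
        · rw [indicator_of_mem (show w ∈ Vᶜ from hw)]
          exact P155.U.test_zero hφ fun h => hw (hc (Metric.ball_subset_closedBall h))
      show H (k + 1) x.1 (Vᶜ.indicator φ) + H' (k + 1) x.2 (V.indicator φ) -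
        (H k x.1 (Vᶜ.indicator φ) + H' k x.2 (V.indicator φ)) = _
      rw [e1, e2, hz0, hz0, zero_add, zero_add]
      exact h5 φ hφ
    · have hdis' : Disjoint (Metric.closedBall z r) (G (k + 1) x.1 : Set ℂ) := by
        refine Set.disjoint_left.2 fun w hw hw' => ?_
        exact Set.disjoint_left.1 hdis hw (Or.inl ⟨hw', (hc hw).2⟩)
      obtain ⟨s, hs, h5⟩ := h1 k z r hr (hc.trans sdiff_subset) hdis'
      refine ⟨s, hs, fun φ hφ => ?_⟩
      have e1 : V.indicator φ = fun _ => 0 := by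
        funext w
        by_cases hw : w ∈ V
        · rw [indicator_of_mem hw]
          exact P155.U.test_zero hφ fun h => (hc (Metric.ball_subset_closedBall h)).2 hw
        · exact indicator_of_notMem hw _
      have e2 : Vᶜ.indicator φ = φ := by
        funext w
        by_cases hw : w ∈ V
        · rw [indicator_of_notMem (show w ∉ Vᶜ from fun h => h hw)]
          exact (P155.U.test_zero hφ fun h => (hc (Metric.ball_subset_closedBall h)).2 hw).symm
        · exact indicator_of_mem (show w ∈ Vᶜ from hw) _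
      show H (k + 1) x.1 (Vᶜ.indicator φ) + H' (k + 1) x.2 (V.indicator φ) -
        (H k x.1 (Vᶜ.indicator φ) + H' k x.2 (V.indicator φ)) = _
      rw [e1, e2, hz0', hz0', add_zero, add_zero]
      exact h5 φ hφ

end

/-- **SPL** -/
theorem spl_all : SPL := by
  rintro O V hO hb - - hV Θ mΘ P G H hP hS Θ' mΘ' P' G' H' hP' hS'
  have hconn := NT733.YC.conn_spl_ae hO hb hV hS hS'
  obtain ⟨z, hz, rfl⟩ := hV
  exact spl_carpets hO hb hO.connectedComponentIn (connectedComponentIn_subset O z)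
    (isOpen_diff_comp hO z) hS hS' hconn

end Vale.Agent.P155.NT814Y
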